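import Vale.Agent.P281.H969.E.Deg
import Vale.Agent.P281.H64.TE.Spec

/-!
# P281, project T-E (helper969): block E5 (DegEStmt)
-/

open Set Filter Metric MeasureTheory Vale.Agent.P281
open scoped Topology ContDiff Manifold ComplexConjugate

noncomputable section

namespace Vale.Agent.P281.H969.E

open Vale.Agent.P281.H64.TK Vale.Agent.P281.H64.TK.TE
open Vale.Agent.P281.H64 (Cm Mark)
open Vale.Agent.P281.H603.TE (sub fsub core)

theorem nDegE_eq {n p d m r : ℕ} {Z Y : Type} [TopologicalSpace Z] [ChartedSpace (Cm n) Z]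
    [TopologicalSpace Y] [ChartedSpace (Cm p) Y] {f : Z → Y} {y : Y} :
    NDegE n p d m r f y ↔ NDegM n p d r m f y := Iff.rfl

/-- `NDegE` may be checked in any model. -/
theorem nDegE_iff {n p d m r : ℕ} {Z Y : Type} [TopologicalSpace Z] [ChartedSpace (Cm n) Z]
    [IsManifold 𝓘(ℂ, Cm n) ω Z] [TopologicalSpace Y] [ChartedSpace (Cm p) Y] {f : Z → Y}
    {E Γ : Type} [TopologicalSpace E] [T2Space E] [SimplyConnectedSpace E] [Group Γ]
    [MulAction Γ E] [ContinuousConstSMul Γ E] {𝓕 : Fam p d E Γ} {q : Cm p → E → Z}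
    {χ : OpenPartialHomeomorph Y (Cm p)} (M : Model (n := n) f 𝓕 χ q) {t : Cm p} (ht : t ∈ 𝓕.T)
    [(core Γ m).FiniteIndex] :
    NDegE n p d m r f (χ.symm t) ↔
      ∃ i, ∃ z ∈ ball (0 : Cm d) 3, (sub (𝓕.at t ht) (core Γ m)).GaussAt r i z :=
  nDegM_iff M ht

/-- **E5** -/
theorem degE (hD : DStmt) (hF1 : F1Stmt) (hab : ABStmt) (hW : WStmt) : DegEStmt :=
  fun p d m r => degM hD hF1 hab hW p d r m

theorem degE_of_inputs (I : Inputs) : DegEStmt := degE I.d I.f1 I.ab I.w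

end Vale.Agent.P281.H969.E
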