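import Vale.Agent.P281.H969.K.DegG
import Vale.Agent.P281.H603.TE.Sub
import Vale.Agent.P281.H603.K.F1

/-!
# P281, project T-E (helper969): the rank of the Gauss maps of finite étale covers of the fibres
-/

open Set Filter Metric MeasureTheory Vale.Agent.P281 Vale.Agent.P281.H713
open Vale.Agent.P272.K (Chart At IsKahler)
open Vale.Agent.P281.H64.Thin (IsThinSet)
open Vale.Agent.P281.H64.Gen (IsSmallSet)
open scoped Topology ContDiff Manifold ComplexConjugate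

noncomputable section

namespace Vale.Agent.P281.H969.E

open Vale.Agent.P281.H64.TK
open Vale.Agent.P281.H64 (Cm Mark)
open Vale.Agent.P281.H603.TE

instance subgroupConst {E Γ : Type} [TopologicalSpace E] [Group Γ] [MulAction Γ E]
    [ContinuousConstSMul Γ E] (K : Subgroup Γ) : ContinuousConstSMul K E :=
  ⟨fun κ => continuous_const_smul (κ : Γ)⟩

section iso
variable {d : ℕ} {E Γ : Type} [TopologicalSpace E] [Group Γ] [MulAction Γ E]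
  [ContinuousConstSMul Γ E] {E' Γ' : Type} [TopologicalSpace E'] [Group Γ'] [MulAction Γ' E']
  [ContinuousConstSMul Γ' E']

/-- Isomorphisms of coverings and the sheets of the finite covers. -/
theorem sub_rel {S : Sheets d E Γ} {S' : Sheets d E' Γ'} (τ : E → E') (ρ : Γ → Γ')
    (hρ : ∀ γ e, τ (γ • e) = ρ γ • τ e)
    (h1 : ∀ i j, ∀ z ∈ ball (0 : Cm d) 3, ∀ w ∈ ball (0 : Cm d) 3, ∀ γ : Γ',
      τ (S.σ i z) = γ • S'.σ j w → ∃ θ : Cm d → Cm d, AnalyticAt ℂ θ z ∧ θ z = w ∧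
        ∀ᶠ u in 𝓝 z, τ (S.σ i u) = γ • S'.σ j (θ u)) (K : Subgroup Γ) [K.FiniteIndex]
    (K' : Subgroup Γ') [K'.FiniteIndex] :
    ∀ i j, ∀ z ∈ ball (0 : Cm d) 3, ∀ w ∈ ball (0 : Cm d) 3, ∀ κ : K',
      τ ((sub S K).σ i z) = κ • (sub S' K').σ j w → ∃ θ : Cm d → Cm d, AnalyticAt ℂ θ z ∧
        θ z = w ∧ ∀ᶠ u in 𝓝 z, τ ((sub S K).σ i u) = κ • (sub S' K').σ j (θ u) := by
  intro i j z hz w hw κ h
  have h2 : ρ (rep K (idx K S.N i).2) • τ (S.σ (idx K S.N i).1 z) =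
      (κ : Γ') • rep K' (idx K' S'.N j).2 • S'.σ (idx K' S'.N j).1 w := by
    rw [← hρ]
    exact h
  have h3 : τ (S.σ (idx K S.N i).1 z) = ((ρ (rep K (idx K S.N i).2))⁻¹ * (κ : Γ') *
      rep K' (idx K' S'.N j).2) • S'.σ (idx K' S'.N j).1 w := by
    rw [mul_smul, mul_smul, ← h2, inv_smul_smul]
  obtain ⟨θ, a1, a2, a3⟩ := h1 _ _ z hz w hw _ h3
  refine ⟨θ, a1, a2, ?_⟩
  filter_upwards [a3] with u hu
  show τ (rep K (idx K S.N i).2 • S.σ (idx K S.N i).1 u) =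
    (κ : Γ') • rep K' (idx K' S'.N j).2 • S'.σ (idx K' S'.N j).1 (θ u)
  rw [hρ, hu, mul_smul, mul_smul, smul_inv_smul]

/-- The restriction of an isomorphism to subgroups which correspond to each other. -/
def subEquiv (ρ : Γ ≃* Γ') (K : Subgroup Γ) (K' : Subgroup Γ') (h : ∀ γ, ρ γ ∈ K' ↔ γ ∈ K) :
    K ≃* K' where
  toFun κ := ⟨ρ κ, (h κ).2 κ.2⟩
  invFun κ := ⟨ρ.symm κ, (h _).1 (by rw [MulEquiv.apply_symm_apply]; exact κ.2)⟩
  left_inv κ := Subtype.ext (ρ.symm_apply_apply κ)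
  right_inv κ := Subtype.ext (ρ.apply_symm_apply κ)
  map_mul' a b := Subtype.ext (map_mul ρ (a : Γ) b)

/-- Isomorphisms of coverings and the Gauss maps of the finite covers. -/
theorem gaussAt_sub_of_iso {S : Sheets d E Γ} {S' : Sheets d E' Γ'} (τ : E ≃ₜ E') (ρ : Γ ≃* Γ')
    (hρ : ∀ γ e, τ (γ • e) = ρ γ • τ e)
    (h1 : ∀ i j, ∀ z ∈ ball (0 : Cm d) 3, ∀ w ∈ ball (0 : Cm d) 3, ∀ γ : Γ',
      τ (S.σ i z) = γ • S'.σ j w → ∃ θ : Cm d → Cm d, AnalyticAt ℂ θ z ∧ θ z = w ∧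
        ∀ᶠ u in 𝓝 z, τ (S.σ i u) = γ • S'.σ j (θ u))
    (h2 : ∀ j i, ∀ w ∈ ball (0 : Cm d) 3, ∀ z ∈ ball (0 : Cm d) 3, ∀ γ : Γ,
      τ.symm (S'.σ j w) = γ • S.σ i z → ∃ θ : Cm d → Cm d, AnalyticAt ℂ θ w ∧ θ w = z ∧
        ∀ᶠ u in 𝓝 w, τ.symm (S'.σ j u) = γ • S.σ i (θ u)) (K : Subgroup Γ) [K.FiniteIndex]
    (K' : Subgroup Γ') [K'.FiniteIndex] (hK : ∀ γ, ρ γ ∈ K' ↔ γ ∈ K)
    {r : ℕ} (h : ∃ i, ∃ z ∈ ball (0 : Cm d) 3, (sub S K).GaussAt r i z) :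
    ∃ j, ∃ w ∈ ball (0 : Cm d) 3, (sub S' K').GaussAt r j w := by
  obtain ⟨i, z, hz, h⟩ := h
  have hρ' : ∀ γ e, τ.symm (γ • e) = ρ.symm γ • τ.symm e := by
    intro γ e
    apply τ.injective
    rw [hρ, τ.apply_symm_apply, τ.apply_symm_apply, ρ.apply_symm_apply]
  exact H969.K.gaussAt_of_iso (S := sub S K) (S' := sub S' K') τ (subEquiv ρ K K' hK)
    (fun κ e => hρ (κ : Γ) e) (sub_rel τ ρ hρ h1 K K') (sub_rel τ.symm ρ.symm hρ' h2 K' K) hz h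

end iso

/-- In some model of `f` at `y`, the Gauss map of the cover `E / core Γ m` of the fibre has rank at
least `r` at some point. -/
def NDegM (n p d r m : ℕ) {Z Y : Type} [TopologicalSpace Z] [ChartedSpace (Cm n) Z]
    [TopologicalSpace Y] [ChartedSpace (Cm p) Y] (f : Z → Y) (y : Y) : Prop :=
  ∃ (E Γ : Type) (_ : TopologicalSpace E) (_ : T2Space E) (_ : SimplyConnectedSpace E)
    (_ : Group Γ) (_ : MulAction Γ E) (_ : ContinuousConstSMul Γ E) (𝓕 : Fam p d E Γ)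
    (q : Cm p → E → Z) (χ : OpenPartialHomeomorph Y (Cm p)) (t : Cm p) (ht : t ∈ 𝓕.T)
    (_ : (core Γ m).FiniteIndex),
    Model (n := n) f 𝓕 χ q ∧ χ.symm t = y ∧ ∃ i, ∃ z ∈ ball (0 : Cm d) 3,
      (sub (𝓕.at t ht) (core Γ m)).GaussAt r i z

/-- `NDegM` may be checked in any model. -/
theorem nDegM_iff {n p d r m : ℕ} {Z Y : Type} [TopologicalSpace Z] [ChartedSpace (Cm n) Z]
    [IsManifold 𝓘(ℂ, Cm n) ω Z] [TopologicalSpace Y] [ChartedSpace (Cm p) Y] {f : Z → Y}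
    {E Γ : Type} [TopologicalSpace E] [T2Space E] [SimplyConnectedSpace E] [Group Γ]
    [MulAction Γ E] [ContinuousConstSMul Γ E] {𝓕 : Fam p d E Γ} {q : Cm p → E → Z}
    {χ : OpenPartialHomeomorph Y (Cm p)} (M : Model (n := n) f 𝓕 χ q) {t : Cm p} (ht : t ∈ 𝓕.T)
    [hKi : (core Γ m).FiniteIndex] :
    NDegM n p d r m f (χ.symm t) ↔
      ∃ i, ∃ z ∈ ball (0 : Cm d) 3, (sub (𝓕.at t ht) (core Γ m)).GaussAt r i z := by
  constructor
  · rintro ⟨E₂, Γ₂, _, _, _, _, _, _, 𝓕₂, q₂, χ₂, t₂, ht₂, _, M₂, hy, h⟩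
    obtain ⟨τ, ρ, h1, h2⟩ := K.exists_iso M₂ M ht₂ ht hy
    have h4 : ∀ e, q₂ t₂ (τ.symm e) = q t e := fun e => by rw [← h2, τ.apply_symm_apply]
    exact gaussAt_sub_of_iso (S := 𝓕₂.at t₂ ht₂) (S' := 𝓕.at t ht) τ ρ h1
      (fun i j z hz w hw γ he => K.K_aux M₂ M ht₂ ht hy τ.continuous h2 hz hw he)
      (fun j i w hw z hz γ he => K.K_aux M M₂ ht ht₂ hy.symm τ.symm.continuous h4 hw hz he)
      _ _ (fun γ => map_core ρ m) h
  · intro h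
    exact ⟨E, Γ, _, inferInstance, inferInstance, _, _, inferInstance, 𝓕, q, χ, t, ht, hKi, M,
      rfl, h⟩

/-- **E2** -/
def DegMStmt : Prop :=
  ∀ (p d r m : ℕ) (Z Y : Type) [TopologicalSpace Z] [T2Space Z] [CompactSpace Z]
    [ChartedSpace (Cm (p + d)) Z] [IsManifold 𝓘(ℂ, Cm (p + d)) ω Z] [TopologicalSpace Y]
    [T2Space Y] [ChartedSpace (Cm p) Y] [IsManifold 𝓘(ℂ, Cm p) ω Y] (f : Z → Y) (S : Set Y)
    (w : Chart (p + d) Z → Cm (p + d) → Matrix (Fin (p + d)) (Fin (p + d)) ℂ), 0 < d →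
    ContMDiff 𝓘(ℂ, Cm (p + d)) 𝓘(ℂ, Cm p) ω f → Function.Surjective f →
    H64.IsProperFibration (n := p + d) (p := p) f S → IsSmallSet (Cm p) S → IsPreconnected Sᶜ →
    IsKahler w → (∃ y ∉ S, NDegM (p + d) p d r m f y) →
    ∃ S' : Set Y, S ⊆ S' ∧ IsSmallSet (Cm p) S' ∧ ∀ y ∉ S', NDegM (p + d) p d r m f y

/-- **E2** -/
theorem degM (hD : DStmt) (hF1 : F1Stmt) (hab : ABStmt) (hW : WStmt) : DegMStmt := by
  intro p d r m Z Y _ _ _ _ _ _ _ _ _ f S w hd hf hsurj hPf hS hpre hw hne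
  have hYc : CompactSpace Y := by
    rw [← isCompact_univ_iff, ← hsurj.range_eq]
    exact isCompact_range hf.continuous
  have hYs : SecondCountableTopology Y := ChartedSpace.secondCountable_of_sigmaCompact (Cm p) Y
  refine ⟨S ∪ {y | ¬ NDegM (p + d) p d r m f y}, subset_union_left,
    K.small_of_local hS hpre (fun y₀ hy₀ => ?_) ?_, ?_⟩
  · obtain ⟨E, Γ, _, _, _, _, _, _, 𝓕, q, M, hy₀T, hTS⟩ := hab p d Z Y f S hd hf hPf y₀ hy₀
    obtain ⟨W, hWp, hK⟩ := hW p d Z Y f w E Γ 𝓕 q (chartAt (Cm p) y₀) hf M hw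
    have hFG : Group.FG Γ := H603.K.fg_of (𝓕.at (chartAt (Cm p) y₀ y₀) hy₀T)
    have hKi : (core Γ m).FiniteIndex := core_finiteIndex m
    obtain ⟨n, ⟨Mk⟩⟩ := hF1 d E (core Γ m)
      (sub (𝓕.at (chartAt (Cm p) y₀ y₀) hy₀T) (core Γ m)) hd
    obtain ⟨g, T', hT', F, c, hn, hTo, ht₀, hbas, hFa, hca⟩ :=
      hD p d E (core Γ m) (fsub 𝓕 (core Γ m)) _ hd (kfam_sub 𝓕 (core Γ m) hK) n Mk
        (chartAt (Cm p) y₀ y₀) hy₀T
    obtain ⟨ι, P, hP, hPD⟩ := K.gauss_analytic (fsub 𝓕 (core Γ m)) hT' hbas hFa r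
    refine ⟨ι, (chartAt (Cm p) y₀).source ∩ chartAt (Cm p) y₀ ⁻¹' T',
      fun a y => P a (chartAt (Cm p) y₀ y),
      (chartAt (Cm p) y₀).continuousOn.isOpen_inter_preimage (chartAt (Cm p) y₀).open_source hTo,
      ⟨mem_chart_source (Cm p) y₀, ht₀⟩, ?_, ?_⟩
    · rintro a y ⟨hys, hy⟩
      have h1 : ContMDiffAt 𝓘(ℂ, Cm p) 𝓘(ℂ, Cm p) ω (chartAt (Cm p) y₀) y :=
        contMDiffAt_of_mem_maximalAtlas (IsManifold.subset_maximalAtlas (chart_mem_atlas _ _)) hys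
      have h2 : ContMDiffAt 𝓘(ℂ, Cm p) 𝓘(ℂ, ℂ) ω (P a) (chartAt (Cm p) y₀ y) :=
        ContDiffAt.contMDiffAt (hP a _ hy).contDiffAt
      exact ContMDiffAt.comp y h2 h1
    · rintro y ⟨hys, hy⟩
      have h1 := nDegM_iff (r := r) (m := m) M (hT' hy)
      rw [(chartAt (Cm p) y₀).left_inv hys] at h1
      rw [mem_ofPred_eq, h1]
      exact hPD _ hy
  · obtain ⟨y, hy, hn⟩ := hne
    exact ⟨y, hy, fun h => h hn⟩
  · intro y hy
    rw [mem_union, not_or] at hy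
    exact not_not.1 hy.2

theorem degM_of_inputs (I : Inputs) : DegMStmt := degM I.d I.f1 I.ab I.w

end Vale.Agent.P281.H969.E
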